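import Vale.Agent.P011.H327.TNnf

/-!
The two-field norm lemma with a sign condition.
-/

open NumberField IsDedekindDomain Polynomial Module

namespace Vale.Agent.P011UZ

open Vale.Agent.P011.H699.Odd (Near)
open Vale.Agent.P011.H327.TN (OT Sp)

/-- The element is totally positive. -/
def TP (R : Type) [Field R] (x : R) : Prop := ∀ ψ : R →+* ℝ, 0 < ψ x

/-- The two-field norm lemma for the step `R' / R` and the elements with the property `Ps`. -/
def TNg (Ps : ∀ (R : Type) [Field R], R → Prop) {K : Type} [Field K] {J : Type} (OT : Subring K)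
    (Sp : J → K[X] → Prop) (R R' : Type) [Field R] [Algebra K R] [Field R'] [Algebra K R']
    [Algebra R R'] (c c' : K) : Prop :=
  ∀ x : R, x ≠ 0 → Ps R x → Near OT R c x → ∃ j : J,
    ∀ (M : Type) [Field M] [Algebra K M] [Algebra R M] [IsScalarTower K R M]
      [FiniteDimensional R M] (P : K[X]), Sp j P → (P.map (algebraMap K R)).IsSplittingField R M →
      ∀ d : K, d ≠ 0 → ∃ (x₁ : R') (y₁ : M), x₁ ≠ 0 ∧ y₁ ≠ 0 ∧
        x = Algebra.norm R x₁ * Algebra.norm R y₁ ∧ Ps R' x₁ ∧ Near OT R' c' x₁ ∧ Near OT M d y₁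

/-- The two-field norm lemma for the quadratic extensions of number fields. -/
def TN2 : Prop :=
  ∀ (K : Type) [Field K] [NumberField K] (T : Set (HeightOneSpectrum (𝓞 K))), T.Finite →
    ∀ (J : Type) (pl : J → Set (HeightOneSpectrum (𝓞 K))),
      (∀ B : Finset (HeightOneSpectrum (𝓞 K)), (∀ V ∈ B, V ∉ T) → ∃ j, ↑B ⊆ pl j) →
      ∀ (R R' : Type) [Field R] [NumberField R] [Field R'] [NumberField R'] [Algebra K R]
        [Algebra R R'] [Algebra K R'] [IsScalarTower K R R'], finrank R R' = 2 →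
        ∀ c ∈ OT T, c ≠ 0 → ∃ c' ∈ OT T, c' ≠ 0 ∧ TNg TP (OT T) (Sp pl) R R' c' c

end Vale.Agent.P011UZ
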