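import Vale.Agent.P011UZ.Inst
import Vale.Agent.P011UE.Kit

/-!
The norms from many subfields generate a neighbourhood of one.
-/

open Module Polynomial

namespace Vale.Agent.P011UZ

open Vale.Agent.P011.H699.Odd (Near)
open Vale.Agent.P011.H738 (Place)
open Vale.Agent.P011.H74.Odd (OT SpF)
open Vale.Agent.P011.H775.Top (avF)
open Vale.Agent.P011.H677.NSF (avF_ult OTa_avF exists_small)
open Vale.Agent.P011.H673.NS
open Vale.Agent.P011.W (Spl)
open Vale.Agent.P011 Vale.Agent.P011UE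

variable {k D : Type} [Field k] [DivisionRing D] [Algebra k D] [FiniteDimensional k D] {n : ℕ}
  {N : D →* k}

/-- The elements which are near one are in a given neighbourhood. -/
theorem near_mem (T : Finset (Place k)) {E : Type} [Field E] [Algebra k E] [FiniteDimensional k E]
    [Algebra.IsSeparable k E] (φ : E →ₐ[k] D) {O : Set D} (hO : O ∈ nT T D) :
    ∃ d ∈ OT (T : Set (Place k)), d ≠ 0 ∧ ∀ z : E, Near (OT (T : Set (Place k))) E d z →
      φ z ∈ O := by
  classical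
  obtain ⟨ε, hε, hO⟩ := hO
  rw [← OTa_avF]
  have hsm := fun (δ : ℝ) (hδ : 0 < δ) => exists_small T hδ
  obtain ⟨C, hC, hco⟩ := exists_coord (a := avF T) (avF_ult T) (finBasis k D)
  obtain ⟨d, hd, hd0, h⟩ := (nrOT_of (avF T) (avF_ult T) (finBasis k D) hsm).near
    (otIn_of (avF_ult T) hsm) φ (ε := ε / C) (by positivity)
  refine ⟨d, hd, hd0, fun z hz => hO _ fun v hv j => (hco _ ⟨v, hv⟩ j).trans_lt ?_⟩
  rw [← lt_div_iff₀' hC]
  exact h z hz

theorem near_nT {T : Finset (Place k)} (hT : T.Nonempty) {c : k} (hc : c ≠ 0) :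
    {x | Near (OT (T : Set (Place k))) k c x} ∈ nT T k := by
  obtain ⟨w, -, h⟩ := T.exists_min_image (fun v => v.abv c) hT
  refine mem_nT_base.2 ⟨_, w.abv.pos hc, fun x hx => ?_⟩
  rw [← OTa_avF]
  exact near_of (avF_ult T) hc fun v => (hx v.1 v.2).le.trans (h v.1 v.2)

/-- The subfield generated by an element of degree `n`. -/
theorem exists_fld (h : Dv k D n N) {j : Finset (Place k)} {y : D} (hy : Reg n j y) :
    ∃ (E : Type) (_ : Field E) (_ : Algebra k E) (θ : E) (φ : E →ₐ[k] D), FiniteDimensional k E ∧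
      Algebra.IsSeparable k E ∧ IntermediateField.adjoin k {θ} = ⊤ ∧ minpoly k θ = minpoly k y ∧
      (∀ z, N (φ z) = Algebra.norm k z) ∧ (∀ z, φ z ∈ Algebra.adjoin k {y}) ∧
      ∀ φ : k →+* ℝ, Spl D n φ → ∃ ψ : E →+* ℝ, ψ.comp (algebraMap k E) = φ := by
  have := h.central
  have := h.infinite
  have hint : IsIntegral k y := IsIntegral.of_finite k y
  have hirr : Irreducible (minpoly k y) := minpoly.irreducible hint
  have hfact : Fact (Irreducible (minpoly k y)) := ⟨hirr⟩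
  have hne : minpoly k y ≠ 0 := hirr.ne_zero
  let E := AdjoinRoot (minpoly k y)
  let θ : E := AdjoinRoot.root (minpoly k y)
  have hE : FiniteDimensional k E := (AdjoinRoot.powerBasis hne).finite
  have hfr : finrank k E = n := by
    rw [(AdjoinRoot.powerBasis hne).finrank, AdjoinRoot.powerBasis_dim, hy.deg]
  have hθm : minpoly k θ = minpoly k y := by
    have h1 := AdjoinRoot.minpoly_root hne
    rw [(minpoly.monic hint).leadingCoeff, inv_one, C_1, mul_one] at h1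
    exact h1
  have hθ : IntermediateField.adjoin k {θ} = ⊤ := by
    have h1 : Algebra.adjoin k ({θ} : Set E) = ⊤ := AdjoinRoot.adjoinRoot_eq_top
    rw [eq_top_iff]
    intro x _
    have h2 : x ∈ Algebra.adjoin k ({θ} : Set E) := by rw [h1]; trivial
    exact IntermediateField.algebra_adjoin_le_adjoin k _ h2
  have hsE : Algebra.IsSeparable k E := by
    have h1 : IsSeparable k θ := by unfold IsSeparable; rw [hθm]; exact hy.sep
    have h2 : Algebra.IsSeparable k (IntermediateField.adjoin k {θ}) :=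
      (IntermediateField.isSeparable_adjoin_simple_iff_isSeparable (F := k) (E := E)).mpr h1
    rw [hθ] at h2
    exact AlgEquiv.Algebra.isSeparable (IntermediateField.topEquiv (F := k) (E := E))
  have hker : ∀ a : k[X], a ∈ Ideal.span {minpoly k y} → aeval y a = 0 := by
    intro a ha
    obtain ⟨c, rfl⟩ := Ideal.mem_span_singleton'.1 ha
    rw [map_mul, minpoly.aeval, mul_zero]
  let φ : E →ₐ[k] D := Ideal.Quotient.liftₐ _ (aeval y) hker
  refine ⟨E, inferInstance, inferInstance, θ, φ, hE, hsE, hθ, hθm, fun z =>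
    (h.nrd _).unique h.rank (H505.Wang.hasNrd_norm h.rank hfr φ z), fun z => ?_, fun φ hφ => ?_⟩
  · obtain ⟨a, rfl⟩ := AdjoinRoot.mk_surjective z
    exact Polynomial.aeval_mem_adjoin_singleton k y (p := a)
  · obtain ⟨r, hr⟩ := hy.real φ hφ
    rw [eval_map] at hr
    exact ⟨AdjoinRoot.lift φ r hr, RingHom.ext fun a => AdjoinRoot.lift_of hr⟩

theorem atl (h2 : TN2) : ATL := by
  intro k D _ _ _ _ n N h T hT y₀ hy₀ O₀ hO₀
  let G : Subgroup kˣ → Prop := fun W => ∃ S : Subgroup Dˣ, W = S.map (Units.map N) ∧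
    Fld k y₀ O₀ S ∧ ∀ j : Finset (Place k), Disjoint j T →
      ∃ y : D, Reg n j y ∧ ∃ O ∈ nU T D, Fld k y O S
  have key : ∀ (y : D) (E : Type) [Field E] [Algebra k E] [FiniteDimensional k E]
      [Algebra.IsSeparable k E] (φ : E →ₐ[k] D), (∀ z, N (φ z) = Algebra.norm k z) →
      (∀ z, φ z ∈ Algebra.adjoin k {y}) → ∀ O ∈ nU T D, ∃ d ∈ OT (T : Set (Place k)), d ≠ 0 ∧
        ∀ S : Subgroup Dˣ, Fld k y O S → ∀ z : E, z ≠ 0 → Near (OT (T : Set (Place k))) E d z →
          ∃ w ∈ S.map (Units.map N), (w : k) = Algebra.norm k z := by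
    rintro y E _ _ _ _ φ hN hφ O ⟨O', hO', hO⟩
    obtain ⟨d, hd, hd0, h1⟩ := near_mem T φ hO'
    refine ⟨d, hd, hd0, fun S hS z hz hn => ?_⟩
    have h3 : φ z ≠ 0 := (_root_.map_ne_zero _).2 hz
    exact ⟨_, Subgroup.mem_map_of_mem _ (hS (Units.mk0 _ h3) (hO (h1 z hn)) (hφ z)), hN z⟩
  have hat : ∀ p : ℕ, p.Prime → AT (OT (T : Set (Place k))) (SpF (plT T)) p := fun p hp =>
    h.glob.elim (fun _ => at_nf h2 T hp) fun ⟨F, _, _, _, _⟩ =>
      haveI := H271.GFF.mk' F k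
      at_ff T hp
  obtain ⟨E, _, _, θ, φ, _, _, -, -, hN, hφ, hR⟩ := exists_fld h hy₀
  obtain ⟨d, hd, hd0, hE⟩ := key y₀ E φ hN hφ O₀ hO₀
  obtain ⟨c, hc, hc0, hW⟩ := mem_of_at (G := G) hat (by
    rintro _ ⟨S, rfl, -, hS⟩ j
    obtain ⟨y, hy, O, hO, hS⟩ := hS j.1 j.2
    obtain ⟨E, _, _, θ, φ, i1, i2, h3, h4, hN, hφ, -⟩ := exists_fld h hy
    obtain ⟨d, hd, hd0, hE⟩ := key y E φ hN hφ O hO
    exact ⟨E, _, _, θ, i1, i2, h3, h4 ▸ SpF.of_minpoly hy.sep hy.spl, d, hd, hd0, hE S hS⟩) E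
    ⟨d, hd, hd0, by
      rintro _ ⟨S, rfl, hS, -⟩ z hz _
      exact hE S hS z hz⟩
  refine ⟨_, near_nT hT hc0, fun S hS hS' x hx hx0 hp => ?_⟩
  obtain ⟨s, hs0, hs, hsp⟩ : ∃ s : E, s ≠ 0 ∧ Near (OT (T : Set (Place k))) E (c * d) s ∧
      ∀ φ : k →+* ℝ, Spl D n φ → 0 < φ (Algebra.norm k s) * φ x := by
    rcases h.glob with _ | ⟨F, _, _, _, _⟩
    · have := NumberField.of_module_finite k E
      exact sgn _ hR (Units.mk0 x hx0) (mul_mem hc hd) (mul_ne_zero hc0 hd0)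
    · refine ⟨1, one_ne_zero, Near.one, fun φ _ => ?_⟩
      have := ((φ.comp (algebraMap (RatFunc F) k)).comp (algebraMap F (RatFunc F))).charZero
      exact absurd (inferInstance : Infinite F) (not_infinite_iff_finite.2 inferInstance)
  obtain ⟨w, hw, he⟩ := hE S hS s hs0 (by rw [mul_comm] at hs; exact hs.mono hc)
  have h3 := hW _ ⟨S, rfl, hS, hS'⟩ (w * Units.mk0 x hx0) (fun ψ => ?_)
    (Near.mul hc (he ▸ (hs.mono hd).norm hc0 hc) hx)
  · obtain ⟨u, hu, h4⟩ := (Subgroup.mul_mem_cancel_left _ hw).1 h3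
    exact ⟨u, hu, congrArg Units.val h4⟩
  rw [Units.val_mul, map_mul, he]
  by_cases h4 : Spl D n ψ
  · exact hsp ψ h4
  · refine mul_pos ?_ ((hp ψ).resolve_left h4)
    rw [← hN]
    exact (h.pos (Units.mk0 _ ((_root_.map_ne_zero φ).2 hs0)) ψ).resolve_left h4

end Vale.Agent.P011UZ
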