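import Vale.Agent.P011UZ.Defs
import Vale.Agent.P011.H673.NS.Atl

/-!
The tower lemma, uniformly in the subgroup.
-/

open Module Polynomial IntermediateField

namespace Vale.Agent.P011UZ

open Vale.Agent.P011.H699.Odd (Near TN)
open Vale.Agent.P011.H673.NS (GoodFor norm_mem_up)
open Vale.Agent.P011

variable {K : Type} [Field K] {OT : Subring K} {J : Type} {Sp : J → K[X] → Prop}
  {G : Subgroup Kˣ → Prop} {Ps : ∀ (R : Type) [Field R], R → Prop}

/-- The norms of the elements close to one are in all the subgroups of the family. -/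
def NI (Ps : ∀ (R : Type) [Field R], R → Prop) (OT : Subring K) (G : Subgroup Kˣ → Prop)
    (E : Type) [Field E] [Algebra K E] : Prop :=
  ∃ d ∈ OT, d ≠ 0 ∧ ∀ W, G W → ∀ z : E, z ≠ 0 → Ps E z → Near OT E d z →
    ∃ w ∈ W, (w : K) = Algebra.norm K z

theorem step (hgood : ∀ W, G W → ∀ j, GoodFor OT W Sp j)
    {R R' : Type} [Field R] [Algebra K R] [Field R'] [Algebra K R'] [Algebra R R']
    [IsScalarTower K R R'] [FiniteDimensional K R] [FiniteDimensional K R']
    (hTN : ∀ c ∈ OT, c ≠ 0 → ∃ c' ∈ OT, c' ≠ 0 ∧ TNg Ps OT Sp R R' c' c)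
    (h : NI Ps OT G R') : NI Ps OT G R := by
  obtain ⟨c, hc, hc0, hR'⟩ := h
  obtain ⟨c', hc', hc'0, hTN⟩ := hTN c hc hc0
  refine ⟨c', hc', hc'0, fun W hW x hx hp hn => ?_⟩
  obtain ⟨j, hj⟩ := hTN x hx hp hn
  obtain ⟨E, i1, i2, θ, hf, -, hθ, hSp, d, hd, hd0, hE⟩ := hgood W hW j
  let M := ((minpoly K θ).map (algebraMap K R)).SplittingField
  obtain ⟨x₁, y₁, hx₁, hy₁, hxy, hp₁, hnx, hny⟩ := hj M (minpoly K θ) hSp
    (Polynomial.IsSplittingField.splittingField _) d hd0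
  have : FiniteDimensional K M := FiniteDimensional.trans K R M
  have hsplit : ((minpoly K θ).map (algebraMap K M)).Splits := by
    have h2 := (Polynomial.IsSplittingField.splits M ((minpoly K θ).map (algebraMap K R)))
    rwa [Polynomial.map_map, ← IsScalarTower.algebraMap_eq] at h2
  obtain ⟨φ⟩ : Nonempty (E →ₐ[K] M) := by
    refine IntermediateField.nonempty_algHom_of_adjoin_splits (S := {θ}) ?_ hθ
    intro s hs
    rw [Set.mem_singleton_iff] at hs
    subst hs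
    exact ⟨IsIntegral.of_finite K s, hsplit⟩
  let i3 : Algebra E M := φ.toRingHom.toAlgebra
  have i4 : IsScalarTower K E M := IsScalarTower.of_algebraMap_eq fun a => (φ.commutes a).symm
  obtain ⟨w₁, hw₁, he₁⟩ := hR' W hW x₁ hx₁ hp₁ hnx
  obtain ⟨w₂, hw₂, he₂⟩ := norm_mem_up hd hd0 hE y₁ hy₁ hny
  refine ⟨w₁ * w₂, mul_mem hw₁ hw₂, ?_⟩
  have : FiniteDimensional R R' := FiniteDimensional.right K R R'
  rw [hxy, map_mul, Algebra.norm_norm, Algebra.norm_norm, Units.val_mul, he₁, he₂]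

/-- The conclusion of the tower lemma for the prime `p`. -/
def AT (OT : Subring K) (Sp : J → K[X] → Prop) (p : ℕ) : Prop :=
  ∀ G : Subgroup Kˣ → Prop, (∀ W, G W → ∀ j, GoodFor OT W Sp j) →
    ∀ (E : Type) [Field E] [Algebra K E] [FiniteDimensional K E] [Algebra.IsSeparable K E],
      NI (fun _ _ _ => True) OT G E → ∃ c ∈ OT, c ≠ 0 ∧ ∃ r : ℕ, ¬ p ∣ r ∧
        ∀ W, G W → ∀ x : Kˣ, TP K x → Near OT K c (x : K) → x ^ r ∈ W

theorem AT.mono {Sp' : J → K[X] → Prop} {p : ℕ} (h : AT OT Sp p)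
    (hS : ∀ j P, Sp' j P → Sp j P) : AT OT Sp' p := fun G hG =>
  h G fun W hW j => by
    obtain ⟨E, i1, i2, θ, h1, h2, h3, h4, h5⟩ := hG W hW j
    exact ⟨E, i1, i2, θ, h1, h2, h3, hS _ _ h4, h5⟩

theorem at_of {p : ℕ} (hp : p.Prime) (Z : Prop)
    (hZ : Z → ∃ ζ : AlgebraicClosure K, IsPrimitiveRoot ζ p)
    (hPs : ∀ (R : Type) [Field R] [Algebra K R] (x : K), TP K x → Ps R (algebraMap K R x))
    (hTN : ∀ (R R' : Type) [Field R] [Field R'] [Algebra K R] [Algebra R R'] [Algebra K R']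
      [IsScalarTower K R R'] [FiniteDimensional K R] [FiniteDimensional K R'] [IsGalois R R'],
      finrank R R' = p → (Z → ∃ ζ : R, IsPrimitiveRoot ζ p) →
      ∀ c ∈ OT, c ≠ 0 → ∃ c' ∈ OT, c' ≠ 0 ∧ TNg Ps OT Sp R R' c' c) : AT OT Sp p := by
  intro G hgood E _ _ _ _ hE
  have : Fact p.Prime := ⟨hp⟩
  obtain ⟨φ⟩ : Nonempty (E →ₐ[K] AlgebraicClosure K) := ⟨IsAlgClosed.lift⟩
  let e : E ≃ₐ[K] φ.fieldRange := AlgEquiv.ofInjectiveField φ
  have hf' : FiniteDimensional K φ.fieldRange := LinearEquiv.finiteDimensional e.toLinearEquiv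
  have hs' : Algebra.IsSeparable K φ.fieldRange := AlgEquiv.Algebra.isSeparable e
  have h0 : ∀ R : IntermediateField K (AlgebraicClosure K), FiniteDimensional K R →
      φ.fieldRange ≤ R → NI Ps OT G R := by
    intro R hRf hle
    let j1 : Algebra E R := ((inclusion hle).comp (e : E →ₐ[K] φ.fieldRange)).toRingHom.toAlgebra
    have j2 : IsScalarTower K E R := IsScalarTower.of_algebraMap_eq fun a =>
      (((inclusion hle).comp (e : E →ₐ[K] φ.fieldRange)).commutes a).symm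
    obtain ⟨d, hd, hd0, h⟩ := hE
    exact ⟨d, hd, hd0, fun W hW z hz _ =>
      norm_mem_up hd hd0 (fun z hz => h W hW z hz trivial) z hz⟩
  have h1 : ∀ (R R' : IntermediateField K (AlgebraicClosure K)) (h : R ≤ R'),
      FiniteDimensional K R → FiniteDimensional K R' → (Z → ∃ ζ : R, IsPrimitiveRoot ζ p) →
      IsGalois R (extendScalars h) → finrank R (extendScalars h) = p → NI Ps OT G R' →
      NI Ps OT G R := by
    intro R R' h hR hR' hz hG hd hQ
    let i1 : Algebra R R' := (inclusion h).toRingHom.toAlgebra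
    have i2 : IsScalarTower K R R' := IsScalarTower.of_algebraMap_eq fun _ => rfl
    let e : (extendScalars h) ≃ₐ[R] R' :=
      { toFun := fun x => ⟨x.1, x.2⟩
        invFun := fun x => ⟨x.1, x.2⟩
        left_inv := fun _ => rfl
        right_inv := fun _ => rfl
        map_mul' := fun _ _ => rfl
        map_add' := fun _ _ => rfl
        commutes' := fun _ => rfl }
    have i5 : IsGalois R R' := IsGalois.of_algEquiv e
    have hd' : finrank R R' = p := by rw [← hd]; exact e.toLinearEquiv.finrank_eq.symm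
    exact step hgood (hTN R R' hd' hz) hQ
  obtain ⟨R, hRf, hpR, c, hc, hc0, hR⟩ : ∃ R : IntermediateField K (AlgebraicClosure K),
      FiniteDimensional K R ∧ ¬ p ∣ finrank K R ∧ NI Ps OT G R := by
    by_cases hz : Z
    · obtain ⟨ζ, hζ⟩ := hZ hz
      obtain ⟨f, R, -, hRf, -, -, hpR, hQ⟩ := H327.Tower.towerZ_induction φ.fieldRange p hζ
        (fun _ R => NI Ps OT G R) (fun R a _ c _ => h0 R a c)
        (fun _ R R' h a b _ _ e f g hq => h1 R R' h a b (fun _ => ⟨⟨ζ, e⟩,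
          IsPrimitiveRoot.of_map_of_injective (f := algebraMap R (AlgebraicClosure K)) hζ
            (algebraMap R _).injective⟩) f g hq)
      exact ⟨R, hRf, hpR, hQ⟩
    · obtain ⟨f, R, -, hRf, -, hpR, hQ⟩ := H327.Tower.tower_induction φ.fieldRange p
        (fun _ R => NI Ps OT G R) (fun R a _ c => h0 R a c)
        (fun _ R R' h a b _ _ f g hq => h1 R R' h a b (fun h => absurd h hz) f g hq)
      exact ⟨R, hRf, hpR, hQ⟩
  refine ⟨c, hc, hc0, finrank K R, hpR, fun W hW x hp hx => ?_⟩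
  obtain ⟨w, hw, he⟩ := hR W hW (algebraMap K R x) ((_root_.map_ne_zero _).mpr x.ne_zero)
    (hPs R x hp) (hx.map (Algebra.ofId K R))
  rw [Algebra.norm_algebraMap] at he
  have h2 : w = x ^ finrank K R := Units.ext (by rw [he, Units.val_pow_eq_pow_val])
  rwa [← h2]

/-- From the powers to the elements. -/
theorem mem_of_at (hat : ∀ p : ℕ, p.Prime → AT OT Sp p)
    (hgood : ∀ W, G W → ∀ j, GoodFor OT W Sp j)
    (E : Type) [Field E] [Algebra K E] [FiniteDimensional K E] [Algebra.IsSeparable K E]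
    (hE : NI (fun _ _ _ => True) OT G E) :
    ∃ c ∈ OT, c ≠ 0 ∧ ∀ W, G W → ∀ x : Kˣ, TP K x → Near OT K c (x : K) → x ∈ W := by
  classical
  have h1 : ∀ p : ℕ, ∃ c ∈ OT, c ≠ 0 ∧ (p.Prime → ∃ r : ℕ, ¬ p ∣ r ∧
      ∀ W, G W → ∀ x : Kˣ, TP K x → Near OT K c (x : K) → x ^ r ∈ W) := by
    intro p
    by_cases hp : p.Prime
    · obtain ⟨c, hc, hc0, h⟩ := hat p hp G hgood E hE
      exact ⟨c, hc, hc0, fun _ => h⟩
    · exact ⟨1, one_mem _, one_ne_zero, fun h1 => absurd h1 hp⟩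
  choose c hc hc0 h using h1
  obtain ⟨c₀, hc₀, hc₀0, h0⟩ := hE
  have hb : finrank K E ≠ 0 := finrank_pos.ne'
  refine ⟨c₀ * ∏ p ∈ (finrank K E).primeFactors, c p, mul_mem hc₀ (prod_mem fun p _ => hc p),
    mul_ne_zero hc₀0 (Finset.prod_ne_zero_iff.mpr fun p _ => hc0 p), fun W hW x hp hx => ?_⟩
  refine H327.Tower.mem_of_pow_mem W x (n := finrank K E) ?_ fun p hp' hpb => ?_
  · obtain ⟨w, hw, he⟩ := h0 W hW (algebraMap K E x) ((_root_.map_ne_zero _).mpr x.ne_zero)
      trivial ((hx.mono (prod_mem fun p _ => hc p)).map (Algebra.ofId K E))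
    rw [Algebra.norm_algebraMap] at he
    have h2 : w = x ^ finrank K E := Units.ext (by rw [he, Units.val_pow_eq_pow_val])
    rwa [← h2]
  obtain ⟨r, hr, h1⟩ := h p hp'
  refine ⟨r, hr, h1 W hW x hp ?_⟩
  have hpm : p ∈ (finrank K E).primeFactors := Nat.mem_primeFactors.mpr ⟨hp', hpb, hb⟩
  have h2 : c₀ * ∏ q ∈ (finrank K E).primeFactors, c q =
      c p * (c₀ * ∏ q ∈ (finrank K E).primeFactors.erase p, c q) := by
    rw [← Finset.mul_prod_erase _ _ hpm]
    ring
  rw [h2] at hx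
  exact hx.mono (mul_mem hc₀ (prod_mem fun q _ => hc q))

theorem tng_of {R R' : Type} [Field R] [Algebra K R] [Field R'] [Algebra K R'] [Algebra R R']
    {c c' : K} (h : TN OT Sp R R' c c') : TNg (fun _ _ _ => True) OT Sp R R' c c' := by
  intro x hx _ hn
  obtain ⟨j, hj⟩ := h x hx hn
  refine ⟨j, fun M _ _ _ _ _ P hP hs d hd => ?_⟩
  obtain ⟨x₁, y₁, h1, h2, h3, h4, h5⟩ := hj M P hP hs d hd
  exact ⟨x₁, y₁, h1, h2, h3, trivial, h4, h5⟩

end Vale.Agent.P011UZ
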