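import Vale.Agent.P011UZ.Atl
import Vale.Agent.P011.H167.TNStar
import Vale.Agent.P011.H677.NSF.Ns
import Vale.Agent.P011.H973.Full.PlaceNF
import Vale.Agent.P011.W.HermEl

/-!
The tower lemma over global fields, and the signs.
-/

open Module Polynomial NumberField IsDedekindDomain

namespace Vale.Agent.P011UZ

open Vale.Agent.P011.H699.Odd (Near TN Itg)
open Vale.Agent.P011.H738 (Place)
open Vale.Agent.P011.H74.Odd (OT SpF)
open Vale.Agent.P011.H308 (plHos hosAbv_le_one)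
open Vale.Agent.P011.H973.Full (plHos_injective exists_eq_plHos ofPl ofPl_algebraMap)
open Vale.Agent.P011

variable {K : Type} [Field K]

/-- The finite sets of places outside `T`. -/
def plT (T : Finset (Place K)) (j : {j : Finset (Place K) // Disjoint j T}) : Set (Place K) := j.1

theorem at_ff [H271.GFF K] (T : Finset (Place K)) {p : ℕ} (hp : p.Prime) :
    AT (OT (T : Set (Place K))) (SpF (plT T)) p := by
  refine at_of (Ps := fun _ _ _ => True) hp False False.elim (fun _ _ _ _ _ => trivial) ?_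
  intro R R' _ _ _ _ _ _ _ _ _ hd _ c _ hc0
  obtain ⟨c', h1, h2, h3⟩ := H167.TNP.tn_star T.finite_toSet (plT T)
    (fun B hB => ⟨⟨B, Finset.disjoint_left.2 hB⟩, subset_rfl⟩) hp hd hc0
  exact ⟨c', h1, h2, tng_of h3⟩

theorem at_nf [NumberField K] (h2 : TN2) (T : Finset (Place K)) {p : ℕ} (hp : p.Prime) :
    AT (OT (T : Set (Place K))) (SpF (plT T)) p := by
  classical
  let TT : Set (HeightOneSpectrum (𝓞 K)) := {V | plHos K V ∈ T}
  have hT : TT.Finite := T.finite_toSet.preimage plHos_injective.injOn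
  let pl : {j : Finset (Place K) // Disjoint j T} → Set (HeightOneSpectrum (𝓞 K)) :=
    fun j => {V | plHos K V ∈ j.1}
  have hJ : ∀ B : Finset (HeightOneSpectrum (𝓞 K)), (∀ V ∈ B, V ∉ TT) → ∃ j, ↑B ⊆ pl j :=
    fun B hB => ⟨⟨B.image fun V => plHos K V, Finset.disjoint_left.2 fun w hw => by
      obtain ⟨V, hV, rfl⟩ := Finset.mem_image.1 hw
      exact hB V hV⟩, fun V hV => Finset.mem_image_of_mem (fun V => plHos K V) hV⟩
  have hO : OT (T : Set (Place K)) = H327.TN.OT TT := by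
    ext x
    refine ⟨fun h V hV => hosAbv_le_one.1 (h _ hV), fun h w hw => ?_⟩
    obtain ⟨V, rfl⟩ := exists_eq_plHos w
    exact hosAbv_le_one.2 (h V hw)
  rw [hO]
  refine AT.mono (Sp := H327.TN.Sp pl) ?_ fun j P hP V hV => ?_
  · by_cases hp2 : p = 2
    · refine at_of (Ps := TP) hp False False.elim
        (fun R _ _ x hx ψ => hx (ψ.comp (algebraMap K R))) ?_
      intro R R' _ _ _ _ _ _ _ _ _ hd _
      have i3 : NumberField R := NumberField.of_module_finite K R
      have i4 : NumberField R' := NumberField.of_module_finite K R'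
      exact h2 K TT hT _ pl hJ R R' (hd.trans hp2)
    · obtain ⟨q, hq0, hq⟩ := H673.NS.exists_lt_one hT.toFinset
      have hq' : ∀ v ∈ TT, v.valuation K q < 1 := fun v hv => hq v (hT.mem_toFinset.2 hv)
      have : NeZero (p : AlgebraicClosure K) := ⟨Nat.cast_ne_zero.2 hp.ne_zero⟩
      have : NeZero p := ⟨hp.ne_zero⟩
      refine at_of (Ps := fun _ _ _ => True) hp True
        (fun _ => HasEnoughRootsOfUnity.exists_primitiveRoot _ p) (fun _ _ _ _ _ => trivial) ?_
      intro R R' _ _ _ _ _ _ _ _ _ hd hζ c hc hc0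
      have i3 : NumberField R := NumberField.of_module_finite K R
      have i4 : NumberField R' := NumberField.of_module_finite K R'
      obtain ⟨ζ, hζ⟩ := hζ trivial
      exact ⟨q * (p : K) ^ 2 * c, mul_mem (mul_mem (fun v hv => (hq' v hv).le)
        (pow_mem (natCast_mem _ p) 2)) hc, mul_ne_zero (mul_ne_zero hq0
          (pow_ne_zero 2 (Nat.cast_ne_zero.2 hp.ne_zero))) hc0,
        tng_of (H327.TN.tn_nf hT pl hJ hp hp2 hd hζ hq0 hq' hc0 hc)⟩
  · have h6 := (hP.1 _ hV).map (ofPl K V)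
    rwa [Polynomial.map_map, show (ofPl K V).comp (algebraMap K _) = algebraMap K _ from
      RingHom.ext (ofPl_algebraMap V)] at h6

/-- An element close to one whose norm has prescribed signs. -/
theorem sgn [NumberField K] {E : Type} [Field E] [NumberField E] [Algebra K E] {O : Subring K}
    (P : (K →+* ℝ) → Prop) (hP : ∀ φ, P φ → ∃ ψ : E →+* ℝ, ψ.comp (algebraMap K E) = φ)
    (a : Kˣ) {c : K} (hc : c ∈ O) (hc0 : c ≠ 0) :
    ∃ s : E, s ≠ 0 ∧ Near O E c s ∧ ∀ φ, P φ → 0 < φ (Algebra.norm K s) * φ a := by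
  obtain ⟨s₀, h0⟩ := W.exists_norm_sign P hP a
  have halg : IsAlgebraic ℤ (s₀ : E) :=
    (IsFractionRing.isAlgebraic_iff ℤ ℚ E).2 (Algebra.IsAlgebraic.isAlgebraic _)
  obtain ⟨m, hm0, hm⟩ := halg.exists_integral_multiple
  have hmi : Itg O E (m • (s₀ : E)) := (hm.tower_top (A := O) :)
  set t : E := algebraMap K E c * m with ht
  have ht0 : t ≠ 0 := mul_ne_zero ((_root_.map_ne_zero _).2 hc0) (Int.cast_ne_zero.2 hm0)
  have h1 : ∀ ψ : E →+* ℝ, ∃ n : ℕ, ∀ r : ℕ, n ≤ r → 0 < ψ ((1 + r * t ^ 2 * s₀) * s₀) := by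
    intro ψ
    have h2 : 0 < ψ (t * s₀) ^ 2 :=
      sq_pos_of_ne_zero ((_root_.map_ne_zero ψ).2 (mul_ne_zero ht0 s₀.ne_zero))
    obtain ⟨n, hn⟩ := exists_nat_gt (-ψ s₀ / ψ (t * s₀) ^ 2)
    refine ⟨n, fun r hr => ?_⟩
    rw [div_lt_iff₀ h2] at hn
    have h3 : ψ ((1 + r * t ^ 2 * s₀) * s₀) = ψ s₀ + r * ψ (t * s₀) ^ 2 := by
      simp only [map_mul, map_add, map_one, map_pow, map_natCast]
      ring
    have h4 : (n : ℝ) ≤ r := by exact_mod_cast hr
    rw [h3]
    nlinarith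
  choose n hn using h1
  obtain ⟨r, hr⟩ := (Set.finite_range n).bddAbove
  have h5 := fun ψ => hn ψ r (hr ⟨ψ, rfl⟩)
  by_cases hs : (1 + r * t ^ 2 * s₀ : E) = 0
  · refine ⟨1, one_ne_zero, Near.one, fun φ hφ => ?_⟩
    obtain ⟨ψ, -⟩ := hP φ hφ
    have := h5 ψ
    rw [hs, zero_mul, map_zero] at this
    exact absurd this (lt_irrefl _)
  refine ⟨_, hs, ⟨algebraMap K E (r * m * c) * (m • (s₀ : E)), Itg.mul (Itg.alg (mul_mem
    (mul_mem (natCast_mem _ _) (intCast_mem _ _)) hc)) hmi, ?_⟩, fun φ hφ => ?_⟩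
  · simp only [ht, map_mul, map_natCast, map_intCast, zsmul_eq_mul]
    ring
  have h6 := (Even.sign_norm φ (Units.mk0 _ hs * s₀)).2 (by
    rw [(Set.ncard_eq_zero (Set.toFinite _)).2
      (Set.eq_empty_of_forall_notMem fun ψ h => (h5 ψ).not_gt h.2)]
    exact Even.zero)
  rw [Units.val_mul, map_mul, map_mul, Units.val_mk0] at h6
  have h7 := h0 φ hφ
  nlinarith [mul_pos h6 h7, sq_nonneg (φ (Algebra.norm K (s₀ : E)))]

end Vale.Agent.P011UZ
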